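import Mathlib
import Vale.Agent.P031.Assemble.Conclusion

/-!
# P031 Q2: the Erdős–Hall question on distinct totient values
-/

namespace Vale.Agent.Results.P031.TotientScale

/-- For every fixed `c > 1`, the number of distinct totient values up to `c * x`, divided by the number
up to `x`, tends to `c`. -/
theorem result : ∀ c : ℝ, 1 < c →
    Filter.Tendsto
      (fun x : ℝ =>
        (Nat.card {v : ℕ // 1 ≤ v ∧ (v : ℝ) ≤ c * x ∧ ∃ n : ℕ, Nat.totient n = v} : ℝ) /
        (Nat.card {v : ℕ // 1 ≤ v ∧ (v : ℝ) ≤ x ∧ ∃ n : ℕ, Nat.totient n = v} : ℝ))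
      Filter.atTop (nhds c) :=
  Vale.Agent.P031.Assemble.totientCount_scale

end Vale.Agent.Results.P031.TotientScale
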